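import Vale.Agent.P092GK.Opp
import Vale.Agent.P092CQ.Kol

/-!
P092, block SOL (helper11): the groups `A U⁺` with `A ≤ Z` solvable are solvable.
-/

set_option linter.all false

open Filter Topology Polynomial Module

namespace Vale.Agent.P092SO

open Vale.Agent.P092GK

/-- an algebraic element with conjugates tending to zero is nilpotent -/
theorem nilp {k A : Type} [NontriviallyNormedField k] [NormedRing A] [NormedAlgebra k A] {S : A}
    (hS : IsAlgebraic k S) (c c' : ℕ → A) (h1 : ∀ n, c n * c' n = 1)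
    (h2 : Tendsto (fun n => c' n * S * c n) atTop (𝓝 0)) : IsNilpotent S := by
  obtain ⟨p, hp, h0⟩ := hS
  obtain ⟨g, hg, hd⟩ := exists_eq_pow_rootMultiplicity_mul_and_not_dvd p hp 0
  rw [map_zero, sub_zero] at hg hd
  generalize rootMultiplicity 0 p = d at hg
  have g0 : g.coeff 0 ≠ 0 := fun e => hd (X_dvd_iff.2 e)
  have hc : ∀ n (q : k[X]), c n * aeval (c' n * S * c n) q = aeval S q * c n := fun n q => by
    have hx : ∀ m : ℕ, c n * (c' n * S * c n) ^ m = S ^ m * c n := fun m => by
      induction m with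
      | zero => simp
      | succ m ih =>
        rw [pow_succ, ← mul_assoc, ih, pow_succ]
        calc S ^ m * c n * (c' n * S * c n) = S ^ m * (c n * c' n) * S * c n := by
              simp only [mul_assoc]
          _ = _ := by rw [h1, mul_one]
    induction q using Polynomial.induction_on' with
    | add p q hp hq => rw [map_add, map_add, mul_add, add_mul, hp, hq]
    | monomial m a =>
      rw [aeval_monomial, aeval_monomial, ← Algebra.smul_def, ← Algebra.smul_def, mul_smul_comm, hx,
        smul_mul_assoc]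
  have h3 : Tendsto (fun n => ‖aeval (c' n * S * c n) g - aeval (0 : A) g‖) atTop (𝓝 0) :=
    tendsto_iff_norm_sub_tendsto_zero.1 ((g.continuous_aeval.tendsto 0).comp h2)
  obtain ⟨n, hn⟩ := (h3.eventually (gt_mem_nhds (norm_pos_iff.2 g0))).exists
  obtain ⟨T, hT⟩ : ∃ T, T = c' n * S * c n := ⟨_, rfl⟩
  rw [← hT] at hn
  -- `T ^ (d + 1) * g T = 0`
  have e1 : c' n * S * (c n * aeval T p) = T ^ (d + 1) * aeval T g := by
    rw [← mul_assoc, ← hT, hg, map_mul, map_pow, aeval_X, pow_succ', mul_assoc]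
  rw [hT, hc, h0, zero_mul, mul_zero, ← hT] at e1
  have e2 : aeval (0 : A) g = algebraMap k A (g.coeff 0) := by
    rw [aeval_def, eval₂_at_zero]
  have e3 : g.coeff 0 • T ^ (d + 1) = -(T ^ (d + 1) * (aeval T g - aeval (0 : A) g)) := by
    rw [mul_sub, ← e1, e2, zero_sub, neg_neg, Algebra.smul_def, Algebra.commutes]
  have e4 : T ^ (d + 1) = 0 := by
    by_contra hne
    have := congrArg norm e3
    rw [norm_smul, norm_neg] at this
    have h5 := norm_mul_le (T ^ (d + 1)) (aeval T g - aeval (0 : A) g)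
    nlinarith [norm_pos_iff.2 hne]
  have e5 := hc n (X ^ (d + 1))
  rw [map_pow, map_pow, aeval_X, aeval_X, ← hT, e4, mul_zero] at e5
  exact ⟨d + 1, by rw [← mul_one (S ^ (d + 1)), ← h1 n, ← mul_assoc, ← e5, zero_mul]⟩

/-- the theorem of Kolchin over any field -/
theorem kol {k Γ V : Type} [Field k] [Group Γ] [AddCommGroup V] [Module k V] [FiniteDimensional k V]
    (ρ : Γ →* End k V) (hu : ∀ g, IsNilpotent (ρ g - 1)) :
    ∃ N, ∀ g ∈ derivedSeries Γ N, ρ g = 1 := by
  let b := Module.finBasis k V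
  let K := AlgebraicClosure k
  let ψ : End k V →+* End K (Fin (finrank k V) → K) :=
    (Matrix.toLinAlgEquiv' (R := K) (n := Fin (finrank k V))).toRingEquiv.toRingHom.comp
      ((algebraMap k K).mapMatrix.comp (LinearMap.toMatrixAlgEquiv b).toRingEquiv.toRingHom)
  have hψ : Function.Injective ψ := fun x y e => (LinearMap.toMatrixAlgEquiv b).injective
    (Matrix.map_injective (algebraMap k K).injective
      ((Matrix.toLinAlgEquiv' (R := K) (n := Fin (finrank k V))).injective e))
  obtain ⟨N, hN⟩ := P092CQ.kol (K := K) (ψ.toMonoidHom.comp ρ) fun g => by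
    have := (hu g).map ψ
    rwa [map_sub, map_one] at this
  exact ⟨N, fun g hg => hψ ((hN g hg).trans (map_one ψ).symm)⟩

/-- a solvable group normalising a solvable group -/
theorem solv_sup {G : Type} [Group G] {A U : Subgroup G} (hA : Group.IsSolvable A)
    (hU : Group.IsSolvable U) (hn : ∀ a ∈ A, ∀ u ∈ U, a * u * a⁻¹ ∈ U) :
    Group.IsSolvable (A ⊔ U : Subgroup G) := by
  have h1 : A ⊔ U ≤ Subgroup.normalizer (U : Set G) := by
    refine sup_le (fun a ha => Subgroup.mem_normalizer_iff.2 fun u => ⟨hn a ha u, fun hu => ?_⟩)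
      Subgroup.le_normalizer
    have := hn _ (A.inv_mem ha) _ hu
    rwa [show a⁻¹ * (a * u * a⁻¹) * a⁻¹⁻¹ = u by group] at this
  haveI : (U.subgroupOf (A ⊔ U)).Normal :=
    (Subgroup.normal_subgroupOf_iff_le_normalizer le_sup_right).2 h1
  let g := QuotientGroup.mk' (U.subgroupOf (A ⊔ U))
  have hs : Function.Surjective (g.comp (Subgroup.inclusion (le_sup_left : A ≤ A ⊔ U))) := by
    rw [← MonoidHom.range_eq_top, eq_top_iff, ← MonoidHom.range_eq_top.2 (QuotientGroup.mk'_surjective
      (U.subgroupOf (A ⊔ U)))]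
    rintro _ ⟨⟨x, hx⟩, rfl⟩
    have hx' := hx
    rw [Subgroup.sup_eq_closure] at hx'
    induction hx' using Subgroup.closure_induction with
    | mem x h =>
      rcases h with h | h
      · exact ⟨⟨x, h⟩, rfl⟩
      · exact ⟨1, by
          rw [map_one]
          exact ((QuotientGroup.eq_one_iff (N := U.subgroupOf (A ⊔ U)) ⟨x, hx⟩).2 h).symm⟩
    | one => exact one_mem _
    | mul x y h h' ih ih' =>
      rw [← Subgroup.sup_eq_closure] at h h'
      exact mul_mem (ih h) (ih' h')
    | inv x h ih =>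
      rw [← Subgroup.sup_eq_closure] at h
      exact inv_mem (ih h)
  haveI := Group.isSolvable_of_surjective hs
  refine Group.isSolvable_of_ker_le_range (Subgroup.inclusion (le_sup_right : U ≤ A ⊔ U)) g
    fun x hx => ⟨⟨x, (QuotientGroup.eq_one_iff (N := U.subgroupOf (A ⊔ U)) x).1 hx⟩, rfl⟩

variable {k : Type} [NontriviallyNormedField k] {G : Type} [Group G] {r : ℕ} {F : FlD k G r}
  [TopologicalSpace G] [IsTopologicalGroup G] [T2Space G]

/-- the elements of `U⁺` are unipotent -/
theorem unip (h : Fl F) {u : G} (hu : u ∈ F.Up) (j : Fin r) : IsNilpotent (F.V j u - 1) := by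
  obtain ⟨c, hc⟩ : ∃ c, c = F.cb Finset.univ := ⟨_, rfl⟩
  have h1 : Tendsto (fun n : ℕ => (c ^ n)⁻¹ * u * c ^ n) atTop (𝓝 1) := hc ▸ h.U_univ.2 hu
  refine nilp (k := k) (IsAlgebraic.of_finite k _) (fun n => F.V j (c ^ n)) (fun n => F.V j (c ^ n)⁻¹)
    (fun n => by rw [← map_mul, mul_inv_cancel, map_one]) ?_
  have h2 := (((h.contV j).tendsto 1).comp h1).sub_const 1
  rw [map_one, sub_self] at h2
  refine h2.congr fun n => ?_
  rw [Function.comp_apply, mul_sub, sub_mul, mul_one, ← map_mul, ← map_mul, ← map_mul,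
    inv_mul_cancel, map_one]

/-- `U⁺` is solvable -/
theorem sol_up (h : Fl F) : Group.IsSolvable F.Up := by
  have key : ∀ j, ∃ N, ∀ g ∈ derivedSeries F.Up N, F.V j g = 1 := fun j => by
    let ψ : (F.E j →L[k] F.E j) →+* End k (F.E j) := ContinuousLinearMap.toLinearMapRingHom
    obtain ⟨N, hN⟩ := kol (ψ.toMonoidHom.comp ((F.V j).comp F.Up.subtype)) fun g => by
      have := (unip h g.2 j).map ψ
      rwa [map_sub, map_one] at this
    exact ⟨N, fun g hg => ContinuousLinearMap.ext fun x => LinearMap.congr_fun (hN g hg) x⟩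
  choose N hN using key
  refine ⟨Finset.univ.sup N, le_bot_iff.1 fun g hg => Subtype.ext (h.up_inj g g.2 fun j x => ?_)⟩
  rw [hN j g (derivedSeries_antitone _ (Finset.le_sup (Finset.mem_univ j)) hg)]
  rfl

/-- **SOL** -/
theorem sol (h : Fl F) {A : Subgroup G} (hA : A ≤ F.Z) (hs : Group.IsSolvable A) :
    Group.IsSolvable (A ⊔ F.Up : Subgroup G) :=
  solv_sup hs (sol_up h) fun a ha => h.zup a (hA ha)

theorem sol_comm (h : Fl F) {A : Subgroup G} (hA : A ≤ F.Z) (hc : ∀ a ∈ A, ∀ b ∈ A, a * b = b * a) :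
    Group.IsSolvable (A ⊔ F.Up : Subgroup G) :=
  sol h hA (Group.isSolvable_of_comm fun a b => Subtype.ext (hc a a.2 b b.2))

theorem sol_zpowers (h : Fl F) {z : G} (hz : z ∈ F.Z) :
    Group.IsSolvable (Subgroup.zpowers z ⊔ F.Up : Subgroup G) :=
  sol_comm h (Subgroup.zpowers_le.2 hz) (by
    rintro _ ⟨m, rfl⟩ _ ⟨n, rfl⟩
    exact (Commute.refl z).zpow_zpow m n)

theorem sol_cb (h : Fl F) : Group.IsSolvable (Subgroup.zpowers (F.cb Finset.univ) ⊔ F.Up : Subgroup G) :=
  sol_zpowers h (h.cb_mem _)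

/-- the centre of `Z` times `U⁺`: contains the torus lattice and every real torus -/
theorem sol_center (h : Fl F) :
    Group.IsSolvable ((F.Z ⊓ Subgroup.centralizer (F.Z : Set G)) ⊔ F.Up : Subgroup G) :=
  sol_comm h inf_le_left fun a ha b hb => hb.2 a ha.1

/-- every subgroup of a solvable subgroup -/
theorem solv_le {S T : Subgroup G} (e : S ≤ T) (hT : Group.IsSolvable T) : Group.IsSolvable S :=
  Group.isSolvable_of_isSolvable_injective (Subgroup.inclusion_injective e)

end Vale.Agent.P092SO
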